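import Vale.Agent.P366IV.Defs2

/-!
# P366CU: admissible curves, the reachability relation and minimizers
-/

open Set Filter Topology
open Vale.Agent.P366IV

noncomputable section

namespace Vale.Agent.P366CU

variable {M : Type} [MetricSpace M] {C : Set M} {Φ : Set (M → ℝ)} {H : (M → ℝ) → M → ℝ}
  {c c' : ℝ → M} {a b d : ℝ}

theorem adm_mono (h : Adm C Φ H c a b) {a' b' : ℝ} (ha : a ≤ a') (hb : b' ≤ b) :
    Adm C Φ H c a' b' :=
  ⟨h.cont.mono (Icc_subset_Icc ha hb), h.mem.mono_left (Icc_subset_Icc ha hb),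
    fun φ hφ s s' k h1 h2 h3 => h.le φ hφ s s' k (ha.trans h1) h2 (h3.trans hb)⟩

theorem adm_shift (h : Adm C Φ H c a b) (u : ℝ) :
    Adm C Φ H (fun r => c (r + u)) (a - u) (b - u) := by
  have h0 : MapsTo (fun r => r + u) (Icc (a - u) (b - u)) (Icc a b) := fun r hr =>
    ⟨by linarith [hr.1], by linarith [hr.2]⟩
  refine ⟨h.cont.comp (continuous_id.add continuous_const).continuousOn h0, h.mem.comp h0,
    fun φ hφ s s' k h1 h2 h3 h4 => ?_⟩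
  have h5 := h.le φ hφ (s + u) (s' + u) k (by linarith) (by linarith) (by linarith) fun r hr => by
    simpa using h4 (r - u) ⟨by linarith [hr.1], by linarith [hr.2]⟩
  rwa [add_sub_add_right_eq_sub] at h5

theorem adm_congr (h : Adm C Φ H c a b) (e : EqOn c' c (Icc a b)) : Adm C Φ H c' a b := by
  refine ⟨h.cont.congr e, fun r hr => (e hr).symm ▸ h.mem hr, fun φ hφ s s' k h1 h2 h3 h4 => ?_⟩
  rw [e ⟨h1, h2.trans h3⟩, e ⟨h1.trans h2, h3⟩]
  exact h.le φ hφ s s' k h1 h2 h3 fun r hr => e ⟨h1.trans hr.1, hr.2.trans h3⟩ ▸ h4 r hr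

theorem adm_glue (h : Adm C Φ H c a b) (h' : Adm C Φ H c b d) : Adm C Φ H c a d := by
  have h0 : Icc a d ⊆ Icc a b ∪ Icc b d := Icc_subset_Icc_union_Icc
  refine ⟨(h.cont.union_of_isClosed h'.cont isClosed_Icc isClosed_Icc).mono h0,
    fun r hr => (h0 hr).elim (h.mem ·) (h'.mem ·), fun φ hφ s s' k h1 h2 h3 h4 => ?_⟩
  rcases le_total s' b with h5 | h5
  · exact h.le φ hφ s s' k h1 h2 h5 h4
  rcases le_total b s with h6 | h6
  · exact h'.le φ hφ s s' k h6 h2 h3 h4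
  have h7 := h.le φ hφ s b k h1 h6 le_rfl fun r hr => h4 r ⟨hr.1, hr.2.trans h5⟩
  have h8 := h'.le φ hφ b s' k le_rfl h5 h3 fun r hr => h4 r ⟨h6.trans hr.1, hr.2⟩
  linarith

theorem rl_trans {x y z : M} {s t : ℝ} (h : Rl C Φ H x y s) (h' : Rl C Φ H y z t) :
    Rl C Φ H x z (s + t) := by
  obtain ⟨hs, c, h1, rfl, rfl⟩ := h
  obtain ⟨ht, c', h2, h3, rfl⟩ := h'
  have h4 := adm_shift h2 (-s)
  rw [zero_sub, neg_neg, sub_neg_eq_add, add_comm] at h4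
  have h5 : EqOn (fun r => if r ≤ s then c r else c' (r + -s)) (fun r => c' (r + -s))
      (Icc s (s + t)) := fun r hr => by
    by_cases h6 : r ≤ s
    · simp only [le_antisymm h6 hr.1, le_refl, if_true, add_neg_cancel, h3]
    · exact if_neg h6
  refine ⟨add_nonneg hs ht, _, adm_glue (adm_congr h1 fun r hr => if_pos hr.2) (adm_congr h4 h5),
    if_pos hs, (h5 ⟨by linarith, le_rfl⟩).trans ?_⟩
  simp

theorem rl_sub (h : Adm C Φ H c a b) {s t : ℝ} (h1 : a ≤ s) (h2 : s ≤ t) (h3 : t ≤ b) :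
    Rl C Φ H (c s) (c t) (t - s) := by
  have h4 := adm_shift (adm_mono h h1 h3) s
  rw [sub_self] at h4
  exact ⟨sub_nonneg.2 h2, _, h4, by simp, by simp⟩

theorem rl_mem {x y : M} {t : ℝ} (h : Rl C Φ H x y t) : x ∈ C ∧ y ∈ C := by
  obtain ⟨ht, c, h1, rfl, rfl⟩ := h
  exact ⟨h1.mem ⟨le_rfl, ht⟩, h1.mem ⟨ht, le_rfl⟩⟩

/-- a curve which is stopped at the ends is admissible everywhere -/
theorem adm_clamp (h0 : ∀ φ ∈ Φ, ∀ x ∈ C, 0 ≤ H φ x) (h : Adm C Φ H c 0 d) (hd : 0 ≤ d) (a b : ℝ) :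
    Adm C Φ H (fun r => c (max 0 (min r d))) a b := by
  have h1 : ∀ r, max 0 (min r d) ∈ Icc 0 d := fun r =>
    ⟨le_max_left _ _, max_le hd (min_le_right _ _)⟩
  refine ⟨h.cont.comp (continuous_const.max (continuous_id.min continuous_const)).continuousOn
    fun r _ => h1 r, fun r _ => h.mem (h1 r), fun φ hφ s s' k _ h2 _ h4 => ?_⟩
  have h5 : 0 ≤ k := (h0 φ hφ _ (h.mem (h1 s))).trans (h4 s ⟨le_rfl, h2⟩)
  refine (h.le φ hφ _ _ k (h1 s).1 (max_le_max le_rfl (min_le_min_right _ h2)) (h1 s').2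
    fun r hr => ?_).trans (mul_le_mul_of_nonneg_left ?_ h5)
  · have h6 := h4 (max s (min r s')) ⟨le_max_left _ _, max_le h2 (min_le_right _ _)⟩
    have h7 : max 0 (min (max s (min r s')) d) = r := by
      obtain ⟨h8, h9⟩ := hr
      simp only [max_def, min_def] at h8 h9 ⊢
      split_ifs at h8 h9 ⊢ <;> linarith
    rwa [h7] at h6
  · simp only [max_def, min_def]
    split_ifs <;> linarith

variable (hC : IsCompact C)
  (hΦ : ∀ φ ∈ Φ, Continuous φ ∧ ContinuousOn (H φ) C ∧ ∀ x ∈ C, 0 ≤ H φ x)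
  (hs : ∀ x ∈ C, ∀ ε > (0 : ℝ), ∃ φ ∈ Φ, φ x = 0 ∧ ∀ y ∈ C, ε ≤ dist y x → 1 ≤ φ y)

include hC hΦ hs

/-- admissible curves are equicontinuous -/
theorem equi {ε : ℝ} (hε : 0 < ε) : ∃ δ > (0 : ℝ), ∀ c : ℝ → M, (∀ a b, Adm C Φ H c a b) →
    ∀ s s', dist s' s < δ → dist (c s') (c s) < ε := by
  have key : ∃ δ > (0 : ℝ), ∀ c : ℝ → M, (∀ a b, Adm C Φ H c a b) →
      ∀ s s', s ≤ s' → s' - s < δ → c s ∈ C → dist (c s') (c s) < ε := by
    refine hC.induction_on (p := fun S => ∃ δ > (0 : ℝ), ∀ c : ℝ → M, (∀ a b, Adm C Φ H c a b) →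
      ∀ s s', s ≤ s' → s' - s < δ → c s ∈ S → dist (c s') (c s) < ε)
      ⟨1, one_pos, fun _ _ _ _ _ _ h => h.elim⟩
      (fun S T hST ⟨δ, h1, h2⟩ => ⟨δ, h1, fun c hc s s' h3 h4 h5 => h2 c hc s s' h3 h4 (hST h5)⟩)
      (fun S T ⟨δ, h1, h2⟩ ⟨δ', h1', h2'⟩ => ⟨min δ δ', lt_min h1 h1', fun c hc s s' h3 h4 h5 =>
        h5.elim (h2 c hc s s' h3 (h4.trans_le (min_le_left _ _)))
          (h2' c hc s s' h3 (h4.trans_le (min_le_right _ _)))⟩) fun x hx => ?_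
    obtain ⟨φ, hφ, h1, h2⟩ := hs x hx (ε / 2) (half_pos hε)
    obtain ⟨k, hk⟩ := (hC.image_of_continuousOn (hΦ φ hφ).2.1).bddAbove
    have h3 : 0 ≤ k := ((hΦ φ hφ).2.2 x hx).trans (hk (mem_image_of_mem _ hx))
    refine ⟨{y | φ y < 1 / 2}, mem_nhdsWithin_of_mem_nhds ((isOpen_lt (hΦ φ hφ).1
      continuous_const).mem_nhds (by simp [h1])), 1 / (2 * (k + 1)), by positivity,
      fun c hc s s' h4 h5 h6 => ?_⟩
    have h7 : ∀ r, c r ∈ C := fun r => (hc r r).mem ⟨le_rfl, le_rfl⟩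
    have h8 := (hc s s').le φ hφ s s' k le_rfl h4 le_rfl fun r _ => hk (mem_image_of_mem _ (h7 r))
    rw [lt_div_iff₀ (by positivity)] at h5
    have h9 : φ (c s) < 1 / 2 := h6
    have h10 := lt_of_not_ge fun h => absurd (h2 _ (h7 s) h) (by linarith)
    have h11 := lt_of_not_ge fun h => absurd (h2 _ (h7 s') h) (by nlinarith)
    linarith [dist_triangle_right (c s') (c s) x]
  obtain ⟨δ, h1, h2⟩ := key
  refine ⟨δ, h1, fun c hc s s' h3 => ?_⟩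
  rw [Real.dist_eq, abs_lt] at h3
  rcases le_total s s' with h | h
  · exact h2 c hc s s' h h3.2 ((hc s s).mem ⟨le_rfl, le_rfl⟩)
  · rw [dist_comm]
    exact h2 c hc s' s h (by linarith) ((hc s' s').mem ⟨le_rfl, le_rfl⟩)

/-- limits of admissible curves -/
theorem lim_adm {ι : Type} (u : Ultrafilter ι) (g : ι → ℝ → M)
    (hg : ∀ᶠ i in u, ∀ a b, Adm C Φ H (g i) a b) : ∃ c : ℝ → M, (∀ a b, Adm C Φ H c a b) ∧
      ∀ r, Tendsto (fun z : ι × ℝ => g z.1 z.2) ((u : Filter ι) ×ˢ 𝓝 r) (𝓝 (c r)) := by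
  have h0 : ∀ᶠ i in u, ∀ r, g i r ∈ C := hg.mono fun i hi r => (hi r r).mem ⟨le_rfl, le_rfl⟩
  have h1 : ∀ r, ∃ x ∈ C, Tendsto (fun i => g i r) u (𝓝 x) := fun r =>
    hC.ultrafilter_le_nhds (u.map fun i => g i r) (le_principal_iff.2 (h0.mono fun i hi => hi r))
  choose c hc h2 using h1
  have h3 : ∀ r, Tendsto (fun z : ι × ℝ => g z.1 z.2) ((u : Filter ι) ×ˢ 𝓝 r) (𝓝 (c r)) :=
    fun r => Metric.tendsto_nhds.2 fun ε hε => by
      obtain ⟨δ, hδ, h4⟩ := equi hC hΦ hs (half_pos hε)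
      filter_upwards [(hg.and (Metric.tendsto_nhds.1 (h2 r) _ (half_pos hε))).prod_mk
        (Metric.ball_mem_nhds r hδ)] with z hz
      linarith [dist_triangle (g z.1 z.2) (g z.1 r) (c r), h4 _ hz.1.1 r z.2 hz.2, hz.1.2]
  refine ⟨c, fun a b => ⟨Continuous.continuousOn (Metric.continuous_iff.2 fun r ε hε => ?_),
    fun r _ => hc r, fun φ hφ s s' k _ h5 _ h6 => ?_⟩, h3⟩
  · obtain ⟨δ, hδ, h4⟩ := equi hC hΦ hs (half_pos hε)
    exact ⟨δ, hδ, fun r' hr => (le_of_tendsto ((h2 r').dist (h2 r))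
      (hg.mono fun i hi => (h4 _ hi r r' hr).le)).trans_lt (half_lt_self hε)⟩
  · have h7 : ∀ k' > k, φ (c s') - φ (c s) ≤ k' * (s' - s) := fun k' hk => by
      have h8 : {z : ι × ℝ | H φ (g z.1 z.2) < k'} ∈ (u : Filter ι) ×ˢ 𝓝ˢ (Icc s s') :=
        isCompact_Icc.mem_prod_nhdsSet_of_forall fun r hr =>
          (((hΦ φ hφ).2.1 _ (hc r)).tendsto.comp (tendsto_nhdsWithin_iff.2 ⟨h3 r,
            (h0.prod_inl _).mono fun z hz => hz z.2⟩)).eventually_lt_const ((h6 r hr).trans_lt hk)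
      obtain ⟨S, hS, T, hT, h9⟩ := mem_prod_iff.1 h8
      refine le_of_tendsto ((((hΦ φ hφ).1.tendsto _).comp (h2 s')).sub
        (((hΦ φ hφ).1.tendsto _).comp (h2 s))) ?_
      filter_upwards [hg, hS] with i hi hi'
      exact (hi s s').le φ hφ s s' k' le_rfl h5 le_rfl fun r hr =>
        le_of_lt (h9 (mk_mem_prod hi' (subset_of_mem_nhdsSet hT hr)))
    exact ge_of_tendsto (x := 𝓝[>] k) (((continuous_mul_const (s' - s)).tendsto k).mono_left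
      nhdsWithin_le_nhds) (eventually_mem_nhdsWithin.mono h7)

theorem rl_closed : IsClosed {q : M × M × ℝ | Rl C Φ H q.1 q.2.1 q.2.2} := by
  refine isClosed_iff_ultrafilter.2 fun q u hu hq => ?_
  have h1 : ∀ z : M × M × ℝ, ∃ g : ℝ → M, Rl C Φ H z.1 z.2.1 z.2.2 →
      (∀ a b, Adm C Φ H g a b) ∧ g 0 = z.1 ∧ g z.2.2 = z.2.1 := fun z => by
    by_cases h : Rl C Φ H z.1 z.2.1 z.2.2
    · obtain ⟨ht, c, h2, h3, h4⟩ := h
      exact ⟨_, fun _ => ⟨adm_clamp (fun φ hφ => (hΦ φ hφ).2.2) h2 ht, by simpa [ht] using h3,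
        by simpa [ht] using h4⟩⟩
    · exact ⟨fun _ => z.1, fun h' => absurd h' h⟩
  choose g hg using h1
  have h2 : ∀ᶠ z : M × M × ℝ in u, Rl C Φ H z.1 z.2.1 z.2.2 := hq
  obtain ⟨c, h3, h4⟩ := lim_adm hC hΦ hs u g (h2.mono fun z hz => (hg z hz).1)
  have h5 : Tendsto (fun z : M × M × ℝ => z.2.2) u (𝓝 q.2.2) :=
    (continuous_snd.snd.tendsto q).mono_left hu
  refine ⟨ge_of_tendsto h5 (h2.mono fun z hz => hz.1), c, h3 _ _, ?_, ?_⟩
  · exact tendsto_nhds_unique_of_eventuallyEq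
      ((h4 0).comp (tendsto_id.prodMk tendsto_const_nhds))
      ((continuous_fst.tendsto q).mono_left hu) (h2.mono fun z hz => (hg z hz).2.1)
  · exact tendsto_nhds_unique_of_eventuallyEq ((h4 _).comp (tendsto_id.prodMk h5))
      ((continuous_snd.fst.tendsto q).mono_left hu) (h2.mono fun z hz => (hg z hz).2.2)

omit hC hΦ hs

/-- **CUR** -/
theorem cur : CUR := fun M _ C Φ H hC hΦ hs => by
  have h0 := rl_closed hC hΦ hs
  have h1 : ∀ T D : Set M, IsClosed T → IsClosed D → ∀ a b : ℝ, IsCompact {q : M × M × ℝ |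
      Rl C Φ H q.1 q.2.1 q.2.2 ∧ q.1 ∈ T ∧ q.2.1 ∈ D ∧ q.2.2 ∈ Icc a b} := fun T D hT hD a b =>
    (hC.prod (hC.prod isCompact_Icc)).of_isClosed_subset (h0.inter
      ((hT.preimage continuous_fst).inter ((hD.preimage continuous_snd.fst).inter
        (isClosed_Icc.preimage continuous_snd.snd))))
      fun q hq => ⟨(rl_mem hq.1).1, (rl_mem hq.1).2, hq.2.2.2⟩
  refine ⟨fun x hx t ht => ⟨ht, fun _ => x, ⟨continuousOn_const, fun _ _ => hx,
    fun φ hφ s s' k _ h2 _ h3 => ?_⟩, rfl, rfl⟩, fun _ _ _ _ _ => rl_trans, h0,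
    fun D T hD hT => ⟨fun t => ?_, fun ⟨x, hx, t, y, hy, h2⟩ => ?_⟩⟩
  · rw [sub_self]
    exact mul_nonneg (((hΦ φ hφ).2.2 x hx).trans (h3 s ⟨le_rfl, h2⟩)) (sub_nonneg.2 h2)
  · have h2 := ((h1 univ D isClosed_univ hD t t).image continuous_fst).isClosed
    refine (congrArg IsClosed (Set.ext fun x => ⟨?_, ?_⟩)).mp h2
    · rintro ⟨q, ⟨h3, -, h4, h5⟩, rfl⟩
      exact ⟨q.2.1, h4, le_antisymm h5.2 h5.1 ▸ h3⟩
    · rintro ⟨y, hy, h3⟩
      exact ⟨(x, y, t), ⟨h3, trivial, hy, le_rfl, le_rfl⟩, rfl⟩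
  · obtain ⟨⟨x', y', τ⟩, ⟨⟨h3, c, h4, e1, e2⟩, h5, h6, h7⟩, h8⟩ :=
      (h1 T D hT hD 0 t).exists_isMinOn ⟨(x, y, t), h2, hx, hy, h2.1, le_rfl⟩
        continuous_snd.snd.continuousOn
    dsimp only at h3 h4 e1 e2 h5 h6 h7
    subst e1 e2
    have h9 : ∀ t' < τ, ∀ z ∈ Rs C Φ H D t', z ∉ T := fun t' ht z ⟨y', hy', h10⟩ hz =>
      ht.not_ge (h8 (show (z, y', t') ∈ _ from ⟨h10, hz, hy', h10.1, ht.le.trans h7.2⟩))
    refine ⟨τ, c, h3, h4, h5, h6, h9, fun s h10 => ⟨⟨_, h6, rl_sub h4 h10.1 h10.2 le_rfl⟩,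
      fun t' ht ⟨y', hy', h11⟩ => h9 (s - 0 + t') (by linarith) _
        ⟨y', hy', rl_trans (rl_sub h4 le_rfl h10.1 h10.2) h11⟩ h5⟩⟩

end Vale.Agent.P366CU

end
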