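import Vale.Agent.P366K2.Pl
import Vale.Agent.P366RB.WsyD
import Vale.Agent.P366XR.Loc
import Vale.Agent.P366K3.Cf
import Vale.Agent.P366K2.Mol

/-!
P366CU: the multipliers in a chart as a system of measures.
-/

open MeasureTheory Metric Filter Topology Set
open scoped ContDiff NNReal
open Vale.Agent.P366 Vale.Agent.P366M Vale.Agent.P366K Vale.Agent.P366XR.L
open Vale.Agent.P366.Stmt (E Field)
open Vale.Agent.P366RB (th)
open Vale.Agent.P366K2 (Tst)

noncomputable section

namespace Vale.Agent.P366CU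

variable {n : ℕ} {M : Type} [Mfe n M] {e : Ch n M} {B : Set (E n)} {ξ : Fin n → E n → ℝ}
  {g : Fld n M}

theorem by_src {p : M → Prop} (h1 : ∀ x ∉ e.source, p x) (h2 : ∀ y, p (e.symm y)) (x : M) :
    p x := by
  by_cases hx : x ∈ e.source
  · exact e.left_inv hx ▸ h2 (e x)
  · exact h1 x hx

theorem zx_out {V : Type} [NormedAddCommGroup V] (v : E n → V) {x : M} (hx : x ∉ e.source) :
    zx e v x = 0 := indicator_of_notMem hx _

/-- The extension by zero of a covector field. -/
def zc (e : Ch n M) (ξ : Fin n → E n → ℝ) : Fin n → M → ℝ := fun j =>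
  zx e fun y => ∑ k, (J e y)⁻¹ k j * ξ k y

theorem repC_zc (he : e ∈ At M) (ξ : Fin n → E n → ℝ) : repC e (zc e ξ) = ξ := by
  funext i y
  have h : (fun k => zc e ξ k (e.symm y)) = ((J e y)⁻¹).transpose.mulVec fun k => ξ k y :=
    funext fun k => zx_symm he _ y
  have h1 := repC_eq e (zc e ξ) y
  rw [h, Matrix.mulVec_mulVec, ← Matrix.transpose_mul, J_inv_mul he, Matrix.transpose_one,
    Matrix.one_mulVec] at h1
  exact congrFun h1 i

theorem cc_zc (he : e ∈ At M) (hB : IsCompact B) (h : ∀ y ∉ B, ∀ i, ξ i y = 0)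
    (hX : ∀ i, Continuous (ξ i)) : CC 0 (zc e ξ) := cc_of (by simp) fun x => by
  by_cases hx : x ∈ e.symm '' B
  · exact ⟨e, he, image_sub he B hx, fun i => by
      rw [repC_zc he]; exact (contDiff_zero.2 (hX i)).contDiffAt⟩
  · refine ⟨ch x, ch_mem x, mem_ch x, fun i => (contDiffAt_const (c := 0)).congr_of_eventuallyEq
      ((ev_pt.1 ((cpt_image he hB).isClosed.isOpen_compl.mem_nhds hx)).mono fun z k => ?_)⟩
    refine Finset.sum_eq_zero fun j _ => mul_eq_zero_of_right _ ?_
    exact zx_zero (fun y hy => by simp [h y hy]) k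

/-- The components. -/
def Th (e : Ch n M) (g : Fld n M) (ζ : Fin n → ℝ) (y : E n) : Option (Fin n) → ℝ :=
  th (rep e g) y 1 (vc e y ζ)

theorem Th_bd (hg : Met g) (he : e ∈ At M) (hB : IsCompact B) : ∃ C, 1 ≤ C ∧ ∀ y ∈ B, ∀ ζ,
    P366MM.sq g (e.symm y) ζ = 1 → ∀ a, |Th e g ζ y a| ≤ C := by
  have G := hg.rep he
  obtain ⟨C, c⟩ := hB.exists_bound_of_continuousOn
    (continuous_pi fun c => (G.sm c c).continuous).continuousOn
  refine ⟨1 + |C|, by linarith [abs_nonneg C], fun y hy ζ h a => ?_⟩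
  rcases a with _ | a
  · exact abs_one.trans_le (by linarith [abs_nonneg C])
  have k := P366Z.quad_cs (G.sy y) (G.g_nonneg y) (Pi.single a 1) (vc e y ζ)
  rw [← quad_vc he g y ζ, show ∑ i, ∑ j, g (e.symm y) i j * ζ i * ζ j = 1 from h] at k
  simp only [Pi.single_apply, mul_ite, ite_mul, mul_one, mul_zero, zero_mul, Finset.sum_ite_irrel,
    Finset.sum_ite_eq', Finset.mem_univ, if_true, Finset.sum_const_zero] at k
  rw [← sq_abs] at k
  have l := ((le_abs_self _).trans (norm_le_pi_norm (fun c => rep e g y c c) a)).trans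
    ((c y hy).trans (le_abs_self C))
  simp only [Th, th]
  nlinarith [sq_nonneg (|∑ j, rep e g y a j * vc e y ζ j| - 1)]

/-- The position in the chart. -/
def ps (e : Ch n M) : M → E n := zx e fun y => y

theorem meas_ps (e : Ch n M) : Measurable (ps e) := by
  classical
  rw [ps, zx, ← piecewise_eq_indicator]
  exact e.continuousOn.measurable_piecewise continuousOn_const e.open_source.measurableSet

theorem ps_symm (he : e ∈ At M) (y : E n) : ps e (e.symm y) = y := zx_symm he _ y

variable {D : Exterior n M} {m κ R1 R2 ε c l : ℝ} {P : Fin n → ℝ} {Z : Fin n → M → ℝ} {W : Type}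
  [MeasurableSpace W] {π : W → M} {ν : W → Fin n → ℝ} {α β : Measure W} {η : Measure M}
  {x : E n} {A : Option (Fin n) → Fin n → Fin n → Option (Fin n) → Fin n → E n → ℝ}
  {A' : Option (Fin n) → Fin n → Fin n → Option (Fin n) → E n → ℝ} {χ : ContDiffBump x}
  {φ : E n → ℝ}

/-- The system. -/
def sy (D : Exterior n M) (ε : ℝ) (π : W → M) (ν : W → Fin n → ℝ) (α : Measure W) (e : Ch n M)
    (χ : E n → ℝ) (A : Option (Fin n) → Fin n → Fin n → Option (Fin n) → Fin n → E n → ℝ)
    (A' : Option (Fin n) → Fin n → Fin n → Option (Fin n) → E n → ℝ) :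
    P366K2.Sy n (Option (Fin n)) W :=
  ⟨α, fun w => ps e (π w), fun a w => wt ε (π w) * zx e (fun y => χ y * Th e D.g (ν w) y a) (π w),
    none, A, A'⟩

theorem sy_ok (H : Mm D m P κ R1 R2 ε Z π ν α β η c l) (he : e ∈ At M)
    (a1 : ∀ α a b β l, Stmt.Smooth (A α a b β l)) (a2 : ∀ α a b β, Stmt.Smooth (A' α a b β))
    (χ : ContDiffBump x) {U : Set (E n)} (hU : IsOpen U) : (sy D ε π ν α e χ A A').Ok U := by
  have := H.fα
  have hB := isCompact_closedBall x χ.rOut
  have z : ∀ y ∉ closedBall x χ.rOut, χ y = 0 := fun y k => χ.zero_of_le_dist (not_le.1 k).le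
  obtain ⟨C, c1, c2⟩ := Th_bd D.met he hB
  have c0 : Continuous fun p => wt ε p * zx e χ p :=
    (cont_wt ε).mul (cd_zx (m := 0) (by simp) he hB z χ.contDiff).continuous
  obtain ⟨C', c3⟩ := c0.bounded_above_of_compact_support (supp_zx he hB z).mul_left
  have e0 : ∀ w, (sy D ε π ν α e χ A A').θ none w = wt ε (π w) * zx e χ (π w) := fun w => by
    simp only [sy, Th, th, mul_one]
  have d : ∀ a w, |(sy D ε π ν α e χ A A').θ a w| ≤ C * (wt ε (π w) * zx e χ (π w)) :=
    fun a w => by
      have u := H.unit w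
      simp only [sy]
      generalize π w = p at u ⊢
      induction p using by_src (e := e) with
      | h1 p k => simp [zx_out _ k]
      | h2 y =>
        rw [zx_symm he, zx_symm he, ← mul_assoc, abs_mul, mul_comm,
          abs_of_nonneg (mul_nonneg (P366K3.wt_pos _ _).le χ.nonneg)]
        by_cases k : y ∈ closedBall x χ.rOut
        · exact mul_le_mul_of_nonneg_right (c2 y k _ u a)
            (mul_nonneg (P366K3.wt_pos _ _).le χ.nonneg)
        · simp [z y k]
  refine ⟨hU, inferInstanceAs (SFinite α), (meas_ps e).comp H.mπ, fun a => Integrable.of_bound (μ := α)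
    (Measurable.aestronglyMeasurable ?_) (C * C') (.of_forall fun w => (d a w).trans
      (mul_le_mul_of_nonneg_left ((le_abs_self _).trans (c3 _)) (by linarith))), fun w => ?_,
    ⟨C, fun a w => (d a w).trans_eq (by rw [← e0]; rfl)⟩, fun _ _ _ _ _ => (a1 ..).contDiffOn,
    fun _ _ _ _ => (a2 ..).contDiffOn⟩
  · rcases a with _ | a
    · exact funext e0 ▸ c0.measurable.comp H.mπ
    refine Eq.mpr (congrArg Measurable ?_) (((cont_wt ε).measurable.comp H.mπ).mul (H.m1 _ (cc_zc
      (ξ := fun j y => χ y * rep e D.g y a j) he hB (fun y k j => by simp [z y k])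
      fun j => χ.continuous.mul ((D.met.rep he).sm a j).continuous)))
    funext w
    simp only [sy, Function.comp, Pi.mul_apply]
    generalize π w = p
    induction p using by_src (e := e) with
    | h1 p k => simp [zc, zx_out _ k]
    | h2 y =>
      rw [dot_vc he, repC_zc he, zx_symm he]
      simp only [Th, th, Finset.mul_sum, mul_assoc]
  · exact le_of_mul_le_mul_left ((mul_zero C).trans_le ((abs_nonneg _).trans
      ((d none w).trans_eq (by rw [← e0]; rfl)))) (by linarith)

/-- The defect of the equations is the source. -/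
theorem df_eq (hR : REP) (H : Mm D m P κ R1 R2 ε Z π ν α β η c l) (he : e ∈ At M)
    (a1 : ∀ α a b β l, Stmt.Smooth (A α a b β l)) (a2 : ∀ α a b β, Stmt.Smooth (A' α a b β))
    {V : Set (E n)} (hV : ∀ y ∈ V, χ y = 1 ∧ 0 < D.F (e.symm y)) (t : Tst V φ)
    {a : Option (Fin n)} {i j : Fin n} {h k : Field n} (sh : P366Y.C.Sy h) (sk : P366Y.C.Sy k)
    (z : ∀ y ∉ tsupport φ, h y = 0 ∧ k y = 0)
    (e1 : ∀ y N (X : Fin n → ℝ), N * C.Lmu (rep e D.g) (rep e D.K) h k y +
      ∑ j, X j * C.Lmo (rep e D.g) (rep e D.K) h k j y =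
        th (rep e D.g) y N X a * Stmt.pd i (Stmt.pd j φ) y - ∑ b, th (rep e D.g) y N X b *
          (∑ l, A a i j b l y * Stmt.pd l φ y + A' a i j b y * φ y)) :
    (sy D ε π ν α e χ A A').df a i j φ = -∫ w, ar D.g (zt e h) (π w) (ν w) ∂β := by
  have o := sy_ok H he a1 a2 χ isOpen_univ
  have T := fun a => (⟨o.sf, o.mπ, o.int a⟩ : P366K2.Tr _ _ _)
  have z1 := fun y k => (z y k).1
  have z2 := fun y k => (z y k).2
  have s1 := sym_zt he t.cpt z1 sh
  have s2 := sym_zt he t.cpt z2 sk
  have cp := cpt_image he t.cpt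
  have ig := fun b => (T b).igc (φ := fun y => ∑ l, A a i j b l y * Stmt.pd l φ y +
    A' a i j b y * φ y) ((continuous_finsetSum _ fun l _ => (a1 a i j b l).continuous.mul
      (t.pd l).sm.continuous).add ((a2 a i j b).continuous.mul t.sm.continuous))
    (HasCompactSupport.intro t.cpt fun y k => by
      simp [image_eq_zero_of_notMem_tsupport k, fun l => image_eq_zero_of_notMem_tsupport
        fun k' => k (P366K2.pd_supp (t.sm.differentiable (by simp)) l k')])
  rw [← eq_neg_of_add_eq_zero_left (id_cpt H s1 s2 cp (fun x ⟨y, hy, e⟩ => e ▸ (hV y (t.sub hy)).2)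
    (zt_zero z1) (zt_zero z2)), P366K2.Sy.df]
  refine (congrArg₂ _ rfl (integral_finsetSum _ fun b _ => ig b).symm).trans ((integral_sub
    ((T a).igc ((t.pd j).pd i).sm.continuous ((t.pd j).pd i).cpt) (integrable_finsetSum _
      fun b _ => ig b)).symm.trans (integral_congr_ae (.of_forall fun w => ?_)))
  have l0 := fun p k => lin_zero (g := D.g) (K := D.K) (ev_zero cp (zt_zero z1) (x := p) k)
    (ev_zero cp (zt_zero z2) k) (ν w)
  simp only [sy]
  generalize π w = p
  induction p using by_src (e := e) with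
  | h1 p k => simp [zx_out _ k, l0 p fun l => k (image_sub he _ l)]
  | h2 y =>
    have e2 := e1 y 1 (vc e y (ν w))
    have e3 := lin_vc hR D.met (P366K3.symK D) s1 s2 he y (ν w)
    simp only [rep_zt he, mul_comm _ (vc e y (ν w) _)] at e3
    have e4 : χ y * lin D.g D.K (zt e h) (zt e k) (e.symm y) (ν w) =
        lin D.g D.K (zt e h) (zt e k) (e.symm y) (ν w) := by
      by_cases q : y ∈ tsupport φ
      · rw [(hV y (t.sub q)).1, one_mul]
      · rw [l0 _ fun ⟨y', q', r⟩ => q (symm_inj he r ▸ q'), mul_zero]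
    rw [← e4, e3, ← one_mul (C.Lmu _ _ _ _ _), e2]
    simp only [zx_symm he, ps_symm he, Th, mul_sub, Finset.mul_sum]
    exact congrArg₂ _ (by ring) (Finset.sum_congr rfl fun b _ => by ring)

end Vale.Agent.P366CU
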