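import Vale.Agent.P366CU.Loc1
import Vale.Agent.P366SB.Bch
import Vale.Agent.P366RB.AsmD

/-!
P366CU: the local representation of the multipliers by Lipschitz functions.
-/

open MeasureTheory Metric Filter Topology Set
open scoped ContDiff NNReal
open Vale.Agent.P366 Vale.Agent.P366M Vale.Agent.P366K Vale.Agent.P366XR.L
open Vale.Agent.P366.Stmt (E Field)
open Vale.Agent.P366RB (th WSY REGB2)
open Vale.Agent.P366K2 (Tst Tc SMO Lo)

noncomputable section

namespace Vale.Agent.P366CU

variable {n : ℕ} {M : Type} [Mfe n M] {e : Ch n M} {D : Exterior n M} {m κ R1 R2 ε c l : ℝ}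
  {P : Fin n → ℝ} {Z : Fin n → M → ℝ} {W : Type} [MeasurableSpace W] {π : W → M}
  {ν : W → Fin n → ℝ} {α β : Measure W} {η : Measure M} {x : E n}
  {A : Option (Fin n) → Fin n → Fin n → Option (Fin n) → Fin n → E n → ℝ}
  {A' : Option (Fin n) → Fin n → Fin n → Option (Fin n) → E n → ℝ} {χ : ContDiffBump x}
  {G : Field n} {f : Option (Fin n) → E n → ℝ} {V : Set (E n)}

/-- The function and the vector field in terms of the components. -/
def Ps (G : Field n) (p : E n × (Option (Fin n) → ℝ)) : Option (Fin n) → ℝ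
  | none => p.2 none / P366Z.dens G p.1
  | some j => (∑ c, Stmt.up G j c p.1 * p.2 (some c)) / P366Z.dens G p.1

theorem cd_Ps (hG : P366Z.Met G) : ContDiff ℝ ∞ (Ps G) := contDiff_pi.2 fun a => by
  have d := fun p : E n × (Option (Fin n) → ℝ) => (hG.dens_pos p.1).ne'
  have k := fun b : Option (Fin n) => (contDiff_apply (n := ∞) ℝ ℝ b).comp
    (contDiff_snd (E := E n))
  rcases a with _ | a
  · exact (k none).div (hG.sm_dens.comp contDiff_fst) d
  · exact (ContDiff.sum fun c _ => ((hG.sm_up a c).comp contDiff_fst).mul (k _)).div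
      (hG.sm_dens.comp contDiff_fst) d

theorem lip_Ps (hG : P366Z.Met G) {r : ℝ} (s : V ⊆ ball x r)
    (h : ∀ a, ∃ L, LipschitzOnWith L (f a) V) :
    ∃ L, ∀ a, LipschitzOnWith L (fun y => Ps G (y, fun b => f b y) a) V := by
  choose L h using h
  obtain ⟨u, u1, u2⟩ := LipschitzOnWith.extend_pi (f := fun y b => f b y) (K := ∑ a, L a)
    (.of_dist_le_mul fun y hy z hz => (dist_pi_le_iff (by positivity)).2 fun a =>
      ((h a).weaken (Finset.single_le_sum (fun _ _ => zero_le) (Finset.mem_univ a))).dist_le_mul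
        y hy z hz)
  obtain ⟨K, k⟩ := ((((cd_Ps hG).of_le one_le_oo).locallyLipschitz.comp (LocallyLipschitz.id.prodMk
    u1.locallyLipschitz)).locallyLipschitzOn).exists_lipschitzOnWith_of_compact
    (isCompact_closedBall x r)
  refine ⟨1 * K, fun a y hy z hz => ?_⟩
  simp only [u2 hy, u2 hz]
  exact ((LipschitzWith.eval a).comp_lipschitzOnWith k) (ball_subset_closedBall (s hy))
    (ball_subset_closedBall (s hz))

theorem lo_of (H : Mm D m P κ R1 R2 ε Z π ν α β η c l) (he : e ∈ At M)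
    (a1 : ∀ α a b β l, Stmt.Smooth (A α a b β l)) (a2 : ∀ α a b β, Stmt.Smooth (A' α a b β))
    {p : M} (hp : p ∈ e.source) (hV : IsOpen V) (h1 : ∀ y ∈ V, χ y = 1)
    (R : (sy D ε π ν α e χ A A').Rep V f) {r : ℝ} (r0 : 0 < r)
    (s : ball (e p) r ∩ {y | 0 < D.F (e.symm y)} ⊆ V)
    (L : ∀ a, ∃ L, LipschitzOnWith L (f a) (ball (e p) r ∩ {y | 0 < D.F (e.symm y)}))
    (S : p ∈ Us D π β → ∀ a, ContDiffAt ℝ ∞ (f a) (e p)) : Lo D ε π ν α β p := by
  have G := D.met.rep he
  obtain ⟨K, k⟩ := lip_Ps G inter_subset_left L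
  have c := fun u => contDiffAt_pi.1 ((cd_Ps G).contDiffAt.comp (e p)
    (contDiffAt_id.prodMk (contDiffAt_pi.2 (S u))))
  refine ⟨e, he, hp, _, _, _, K, isOpen_ball, mem_ball_self r0, fun u ξ hu hξ ⟨B, b1, b2, b3⟩ => ?_,
    k none, fun j => k (some j), fun u => ⟨c u none, fun j => c u (some j)⟩⟩
  have o := sy_ok H he a1 a2 χ hV
  obtain ⟨Φ, hΦ⟩ : ∃ Φ : Option (Fin n) → E n → ℝ, Φ = fun a y => a.elim (loc e u y)
    fun c => ∑ j, Stmt.up (rep e D.g) j c y * repC e ξ j y := ⟨_, rfl⟩
  have z : ∀ y ∉ B, loc e u y = 0 ∧ ∀ j, repC e ξ j y = 0 := fun y k =>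
    have q := b3 (e.symm y) fun ⟨y', q', r⟩ => k (symm_inj he r ▸ q')
    ⟨q.1, fun j => by simp [repC, q.2]⟩
  have z' : ∀ a, ∀ y ∉ B, Φ a y = 0 := fun a y k => by cases a <;> simp [hΦ, z y k]
  have c1 : ∀ a, Continuous (Φ a) := fun a => by
    subst hΦ
    rcases a with _ | a
    · exact cont_loc he hu
    · exact continuous_finsetSum _ fun j _ => (G.sm_up j a).continuous.mul (hξ e he j).continuous
  have c2 := fun a => HasCompactSupport.intro b2 (z' a)
  have c3 : ∀ a, tsupport (Φ a) ⊆ V := fun a => (closure_minimal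
    (Function.support_subset_iff'.2 (z' a)) b2.isClosed).trans (b1.trans s)
  have i1 := fun a => (⟨o.sf, o.mπ, o.int a⟩ : P366K2.Tr _ _ _).igc (c1 a) (c2 a)
  have i2 := fun a => (P366K2.cont_mul hV (R.1 a) (c1 a) (c3 a)).integrable_of_hasCompactSupport
    (μ := volume) (c2 a).mul_left
  refine (integral_congr_ae (.of_forall fun w => ?_)).trans ((integral_finsetSum Finset.univ
    fun a _ => i1 a).trans ((Finset.sum_congr rfl fun a _ => R.2 a _ (c1 a) (c2 a) (c3 a)).trans
      ((integral_finsetSum _ fun a _ => i2 a).symm.trans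
        (integral_congr_ae (.of_forall fun y => ?_)))))
  · simp only [sy]
    generalize π w = q
    induction q using by_src (e := e) with
    | h1 q k => simp [zx_out _ k, b3 q fun l => k (image_sub he _ l)]
    | h2 y =>
      simp only [dot_vc he, zx_symm he, ps_symm he]
      by_cases k : y ∈ B
      · simp only [h1 y (s (b1 k)), one_mul, mul_left_comm _ (wt ε _), ← Finset.mul_sum,
          Fintype.sum_option, hΦ, Option.elim, Th, th, mul_one, Finset.sum_mul]
        rw [Finset.sum_comm]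
        simp only [mul_comm _ (repC e ξ _ y), mul_assoc (repC e ξ _ y), ← Finset.mul_sum,
          G.up_g_mul]
        rfl
      · simp [z' _ y k, z y k, show u (e.symm y) = 0 from (z y k).1]
  · simp only [Fintype.sum_option, hΦ, Option.elim, Ps, Finset.mul_sum, div_mul_eq_mul_div,
      ← Finset.sum_div, ← add_div, div_mul_cancel₀ _ (G.dens_pos y).ne', Finset.sum_mul]
    rw [Finset.sum_comm]
    exact congrArg _ (Finset.sum_congr rfl fun j _ => Finset.sum_congr rfl fun c _ => by ring)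

theorem gp_bd (D : Exterior n M) {p : M} {ζ : Fin n → ℝ} (h : P366MM.sq D.g p ζ = 1) :
    |gp D.g (nrm D.g D.F) p ζ| ≤ 1 :=
  abs_le_one_iff_mul_self_le_one.2 <| (sq _).symm.trans_le <| (P366Z.quad_cs (D.met.sy p)
    (D.met.g_nonneg p) _ ζ).trans (mul_le_one₀ (P366MM.sq_nrm D.met D.F p)
      (zero_le_one.trans h.ge) h.le)

theorem meas_gp (H : Mm D m P κ R1 R2 ε Z π ν α β η c l) :
    Measurable fun w => gp D.g (nrm D.g D.F) (π w) (ν w) := by
  refine Eq.mpr (congrArg Measurable (funext fun w => ?_)) ((((D.met.sm_ip D.dom.1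
    D.dom.1).cont.sqrt.measurable.comp H.mπ).inv).mul (H.m1 _ (D.met.sm.lower (by simp)
      ((D.met.sm_gr D.dom.1).of_le (by simp)))))
  simp only [gp, P366MM.nrm_eq, Function.comp, Pi.mul_apply, Pi.inv_apply, Finset.mul_sum,
    Finset.sum_mul]
  rw [Finset.sum_comm]
  exact Finset.sum_congr rfl fun i _ => Finset.sum_congr rfl fun j _ => by
    rw [D.met.sy _ j i, gn]; ring

/-- The coefficients of the trace. -/
def bt (e : Ch n M) (D : Exterior n M) (a : Option (Fin n)) (y : E n) : ℝ :=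
  a.elim 1 fun c => -repV e (nrm D.g D.F) c y

theorem bt_sum (he : e ∈ At M) (w : W) : ∑ a, bt e D a ((sy D ε π ν α e χ A A').π w) *
    (sy D ε π ν α e χ A A').θ a w =
      zx e χ (π w) * (wt ε (π w) * (1 - gp D.g (nrm D.g D.F) (π w) (ν w))) := by
  simp only [sy]
  generalize π w = q
  induction q using by_src (e := e) with
  | h1 q k => simp [zx_out _ k]
  | h2 y =>
    simp only [zx_symm he, ps_symm he, Fintype.sum_option, bt, Option.elim, Th, th, gp,
      ← quad_rep he D.g (nrm D.g D.F) (fun i _ => ν w i) y, Finset.mul_sum,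
      sub_eq_add_neg, mul_add, mul_neg, neg_mul, Finset.sum_neg_distrib]
    exact congrArg₂ _ (by ring) (congrArg _ (Finset.sum_congr rfl fun i _ =>
      Finset.sum_congr rfl fun j _ => by rw [show repV e _ j y = vc e y (ν w) j from rfl]; ring))

theorem zx_mem (he : e ∈ At M) (q : M) : 0 ≤ zx e χ q ∧ zx e χ q ≤ 1 := by
  induction q using by_src (e := e) with
  | h1 q k => simp [zx_out _ k]
  | h2 y => rw [zx_symm he]; exact ⟨χ.nonneg, χ.le_one⟩

theorem trace (H : Mm D m P κ R1 R2 ε Z π ν α β η c l) (he : e ∈ At M) (T : Tc D ε π ν α)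
    (h0 : D.F (e.symm x) = 0) {r : ℝ} (r0 : 0 < r) {i : Fin n}
    (hF : ∀ y ∈ ball x r, D.F (e.symm y) = y i) : ∃ s > 0, closedBall x s ⊆ ball x r ∧ Tendsto (fun t : ℝ =>
      t⁻¹ * ∫ w in (sy D ε π ν α e χ A A').π ⁻¹' {y | y ∈ ball x s ∧ y i ∈ Icc t (2 * t)},
        ∑ a, bt e D a ((sy D ε π ν α e χ A A').π w) * (sy D ε π ν α e χ A A').θ a w
          ∂(sy D ε π ν α e χ A A').m) (𝓝[>] 0) (𝓝 0) := by
  have := H.fα
  obtain ⟨O, o1, o2, ⟨R, o3⟩, o4⟩ := T.2 _ h0
  obtain ⟨s, s0, s1⟩ := nhds_basis_closedBall.mem_iff.1 (inter_mem (ball_mem_nhds x r0)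
    ((cont_symm he).continuousAt.preimage_mem_nhds (o1.mem_nhds o2)))
  obtain ⟨C, c1⟩ := (isCompact_px M R).exists_bound_of_continuousOn (cont_wt ε).continuousOn
  have p : ∀ w, 0 ≤ wt ε (π w) * (1 - gp D.g (nrm D.g D.F) (π w) (ν w)) := fun w =>
    mul_nonneg (P366K3.wt_pos _ _).le (sub_nonneg.2 (abs_le.1 (gp_bd D (H.unit w))).2)
  simp only [bt_sum he]
  refine ⟨s, s0, fun _ k => (s1 k).1, squeeze_zero' (eventually_mem_nhdsWithin.mono fun t k => mul_nonneg
    (inv_nonneg.2 (le_of_lt k)) (integral_nonneg fun w => mul_nonneg (zx_mem he _).1 (p w)))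
    (eventually_mem_nhdsWithin.mono fun t k => mul_le_mul_of_nonneg_left ?_
      (inv_nonneg.2 (le_of_lt k))) o4⟩
  have m1 := H.mπ (o1.measurableSet.inter (D.dom.1.cont.measurable
    (measurableSet_Icc (a := t) (b := 2 * t))))
  have m2 := ((meas_ps e).comp H.mπ) ((isOpen_ball (x := x) (ε := s)).measurableSet.inter
    ((P366Z.contDiff_coord (m := 0) i).continuous.measurable
      (measurableSet_Icc (a := t) (b := 2 * t))))
  refine (integral_indicator (μ := α) m2).symm.trans_le ((integral_mono_of_nonneg (.of_forall fun w =>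
    indicator_nonneg (fun w _ => mul_nonneg (zx_mem he _).1 (p w)) w) ((integrable_indicator_iff
      m1).2 (Measure.integrableOn_of_bounded (M := C * 2) (measure_ne_top _ _)
        (((cont_wt ε).measurable.comp H.mπ).mul (measurable_const.sub
          (meas_gp H))).aestronglyMeasurable ((ae_restrict_mem m1).mono fun w k => ?_)))
    (.of_forall fun w => indicator_le' (fun w k => ?_) (fun w _ => indicator_nonneg
      (fun w _ => p w) w) w)).trans_eq (integral_indicator m1))
  · refine (norm_mul_le _ _).trans (mul_le_mul (c1 _ (o3 _ k.1)) ((abs_sub _ _).trans ?_)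
      (norm_nonneg _) ((norm_nonneg _).trans (c1 _ (o3 _ k.1))))
    linarith [gp_bd D (H.unit w), abs_one (α := ℝ)]
  · by_cases q : π w ∈ e.source
    · have u : ps e (π w) = e (π w) := indicator_of_mem q _
      have k1 := s1 (ball_subset_closedBall k.1)
      have k2 := k.2
      simp only [Function.comp, mem_preimage, u, mem_inter_iff, e.left_inv q] at k1 k2
      rw [indicator_of_mem (show w ∈ π ⁻¹' (O ∩ D.F ⁻¹' Icc t (2 * t)) from
        ⟨k1.2, by rwa [← hF _ k1.1, e.left_inv q] at k2⟩)]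
      exact mul_le_of_le_one_left (p w) (zx_mem he _).2
    · rw [zx_out _ q, zero_mul]
      exact indicator_nonneg (fun w _ => p w) w

theorem cd_bt (he : e ∈ At M) {r : ℝ} {i : Fin n} (hF : ∀ y ∈ ball x r, D.F (e.symm y) = y i)
    (a : Option (Fin n)) : ContDiffOn ℝ ∞ (bt e D a) (ball x r) := fun y k => by
  rcases a with _ | a
  · exact contDiffWithinAt_const
  have G := D.met.rep he
  have F := D.dom.1.lc he
  have u : Stmt.pd i (loc e D.F) y = 1 := (P366Z.pd_congr (h := fun z => z i)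
    (eventually_of_mem (isOpen_ball.mem_nhds k) hF) i).trans (by rw [P366Z.pd_coord, if_pos rfl])
  have v := G.up_pos y (ξ := fun j => Stmt.pd j (loc e D.F) y) fun q =>
    one_ne_zero (u.symm.trans (congrFun q i))
  unfold bt
  rw [repV_nrm he D.g D.dom.1.diff]
  exact (((G.sm_gr F a).contDiffAt.div ((G.sm_ip F F).contDiffAt.sqrt v.ne')
    (Real.sqrt_pos.2 v).ne').neg).contDiffWithinAt

/-- **The local representation.** -/
theorem lo (h1 : P366K2.REG) (h2 : REGB2) (h3 : SMO) (h4 : WSY) (hR : REP) (Q : Eqc D m P κ)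
    (H : Mm D m P κ R1 R2 ε Z π ν α β η c l) (T : Tc D ε π ν α) (p : M) (hp : 0 ≤ D.F p) :
    Lo D ε π ν α β p := by
  have := H.fβ
  have : NeZero n := ⟨by linarith [Q.n3]⟩
  obtain ⟨e, he, pe, r, r0, hF⟩ : ∃ e ∈ At M, p ∈ e.source ∧ ∃ r > 0, D.F p = 0 →
      ∀ y ∈ ball (e p) r, D.F (e.symm y) = y 0 := by
    by_cases k : D.F p = 0
    · obtain ⟨e, a, b, c, r, d, f⟩ := P366SB.bch D.dom.1 k (D.dom.2.1 p k)
      exact ⟨e, a, b, r, d, fun _ => c ▸ f⟩
    · exact ⟨_, ch_mem p, mem_ch p, 1, one_pos, fun q => absurd q k⟩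
  obtain ⟨A, A', a1, a2, w⟩ := h4 n _ _ (by linarith [Q.n3]) (D.met.rep he)
    (P366K3.Sym.sy' (P366K3.symK D) he)
  let χ : ContDiffBump (e p) := ⟨r, 2 * r, r0, by linarith⟩
  obtain ⟨V, hV⟩ : ∃ V, V = ball (e p) r ∩ {y | 0 < D.F (e.symm y)} := ⟨_, rfl⟩
  have v0 : IsOpen V := hV ▸ isOpen_ball.inter (isOpen_lt continuous_const (cont_loc he D.dom.1.cont))
  have v1 : ∀ y ∈ V, χ y = 1 ∧ 0 < D.F (e.symm y) := fun y k =>
    ⟨χ.one_of_mem_closedBall (ball_subset_closedBall (hV ▸ k).1), (hV ▸ k).2⟩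
  have o := fun U => sy_ok H he a1 a2 χ (U := U)
  have d : ∀ a i j φ, Tst V φ → (sy D ε π ν α e χ A A').df a i j φ = if a = none then ∫ w,
      zx e (fun y => φ y * (Th e D.g (ν w) y (some i) * Th e D.g (ν w) y (some j))) (π w) ∂β
      else 0 := fun a i j φ t => by
    obtain ⟨h, k, sh, sk, z, e1, e2⟩ := w a i j φ t.sm
    rw [df_eq hR H he a1 a2 v1 t sh sk z e1, ← integral_neg, ← integral_zero W ℝ (μ := β)]
    split_ifs with q <;> refine integral_congr_ae (.of_forall fun w => ?_) <;>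
      have u := H.unit w <;> simp only <;> generalize π w = x at u ⊢ <;>
      induction x using by_src (e := e) with
      | h1 x s => simp [zx_out _ s, ar_zero (zt_zero (fun y k => (z y k).1) x
          fun l => s (image_sub he _ l))]
      | h2 y =>
        rw [ar_vc he, rep_zt he, e2 y _ ((quad_vc he D.g y _).symm.trans u)]
        simp [q, zx_symm he, Th, mul_assoc]
  have wk : (sy D ε π ν α e χ A A').Wk V := ⟨fun a q i φ t => (d a i i φ t).trans (if_neg q),
    fun i φ t q => ((d none i i φ t).trans (if_pos rfl)).ge.trans' (integral_nonneg fun w =>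
      indicator_nonneg (fun _ _ => mul_nonneg (q _) (mul_self_nonneg _)) _)⟩
  obtain ⟨f, R, Lf⟩ := h1 n _ W _ V (o V v0) wk
  have S : p ∈ Us D π β → ∀ a, ContDiffAt ℝ ∞ (f a) (e p) := fun ⟨q, O, o1, o2⟩ a => by
    have u := v0.inter ((isOpen_interior (s := O)).preimage (cont_symm he))
    refine (h3 n _ W _ _ f (o _ u) (fun a i j φ t => (d a i j φ (t.mono inter_subset_left)).trans ?_)
      ⟨fun a => (R.1 a).mono inter_subset_left, fun a φ s1 s2 s3 => R.2 a φ s1 s2
        (s3.trans inter_subset_left)⟩ a).contDiffAt (u.mem_nhds ⟨hV ▸ ⟨mem_ball_self r0, ?_⟩, ?_⟩)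
    · refine ite_eq_right_iff.2 fun _ => integral_eq_zero_of_ae
        ((measure_eq_zero_iff_ae_notMem.1 o2).mono fun w k => ?_)
      refine indicator_apply_eq_zero.2 fun s => mul_eq_zero_of_left
        (image_eq_zero_of_notMem_tsupport fun q => k ?_) _
      exact mem_of_eq_of_mem (x := π w) (e.left_inv s).symm (interior_subset (s := O) (t.sub q).2)
    · simpa only [mem_ofPred_eq, e.left_inv pe] using q
    · simpa only [mem_preimage, e.left_inv pe] using mem_interior_iff_mem_nhds.2 o1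
  rcases hp.eq_or_lt with q | q
  · have F := hF q.symm
    have v2 : V = ball (e p) r ∩ {y | 0 < y 0} := hV.trans (Set.ext fun y =>
      and_congr_right fun k => by simp only [mem_ofPred_eq, F y k])
    obtain ⟨C, c1, c2⟩ := Th_bd D.met he (isCompact_closedBall (e p) r)
    have mp := (meas_ps e).comp H.mπ
    have bd : ∀ a i φ, Tst V φ → |(sy D ε π ν α e χ A A').df a 0 i φ| ≤
        ∫ y, |φ y| ∂((C * C).toNNReal • β.map (ps e ∘ π)) := fun a i φ t => by
      rw [d a _ _ φ t]
      split_ifs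
      · obtain ⟨b, hb⟩ := t.cpt.exists_bound_of_continuous t.sm.continuous
        have mφ := t.sm.continuous.abs.measurable
        rw [integral_smul_nnreal_measure, integral_map mp.aemeasurable mφ.aestronglyMeasurable,
          NNReal.smul_def, Real.coe_toNNReal _ (mul_self_nonneg C), smul_eq_mul, ← integral_const_mul]
        refine (Real.norm_eq_abs _).ge.trans <| norm_integral_le_of_norm_le ((Integrable.of_bound (mφ.comp mp).aestronglyMeasurable b
          (.of_forall fun w => (abs_abs _).trans_le (hb _))).const_mul _) (.of_forall fun w => ?_)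
        have u := H.unit w
        simp only [Function.comp]
        generalize π w = x at u ⊢
        induction x using by_src (e := e) with
        | h1 x s => rw [zx_out _ s, norm_zero]; exact mul_nonneg (mul_self_nonneg C) (abs_nonneg _)
        | h2 y =>
          rw [zx_symm he, ps_symm he, Real.norm_eq_abs, abs_mul, abs_mul, mul_comm]
          by_cases k : y ∈ tsupport φ
          · have s := c2 y (ball_subset_closedBall (hV ▸ t.sub k).1) _ u
            exact mul_le_mul_of_nonneg_right (mul_le_mul (s _) (s _) (abs_nonneg _) (by linarith))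
              (abs_nonneg _)
          · simp [image_eq_zero_of_notMem_tsupport k]
      · exact abs_zero.trans_le (integral_nonneg fun _ => abs_nonneg _)
    obtain ⟨s, s0, L, k⟩ := h2 n _ W _ _ f 0 _ (bt e D) (e p)
      (o _ isOpen_ball) (v2 ▸ wk) (v2 ▸ R) inferInstance (v2 ▸ bd) (cd_bt he F)
      (fun _ _ => rfl) (fun w _ => (bt_sum he w).ge.trans' (mul_nonneg (zx_mem he _).1 (mul_nonneg
        (P366K3.wt_pos _ _).le (sub_nonneg.2 (abs_le.1 (gp_bd D (H.unit w))).2))))
      (mem_ball_self r0) (by rw [← F _ (mem_ball_self r0), e.left_inv pe, q])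
      (trace H he T (by rw [e.left_inv pe, q]) r0 F)
    have u : ball (e p) (min s r) ∩ {y | 0 < D.F (e.symm y)} ⊆ V :=
      hV ▸ inter_subset_inter_left _ (ball_subset_ball (min_le_right _ _))
    exact lo_of H he a1 a2 pe v0 (fun y k => (v1 y k).1) R (lt_min s0 r0) u (fun a => ⟨L, (k a).mono
      fun y t => ⟨ball_subset_ball (min_le_left _ _) t.1, (v2 ▸ u t).2⟩⟩) S
  · have u : e p ∈ V := hV ▸ ⟨mem_ball_self r0, by simpa only [mem_ofPred_eq, e.left_inv pe] using q⟩
    choose L t t1 t2 using fun a => Lf a u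
    obtain ⟨s, s0, k⟩ := Metric.mem_nhds_iff.1 (inter_mem (v0.mem_nhds u) (iInter_mem.2 fun a =>
      (v0.nhdsWithin_eq u ▸ t1 a :)))
    exact lo_of H he a1 a2 pe v0 (fun y k => (v1 y k).1) R s0 (fun y q => (k q.1).1)
      (fun a => ⟨L a, (t2 a).mono fun y q => mem_iInter.1 (k q.1).2 a⟩) S

/-- **LOC** -/
theorem loc_of (h1 : P366K2.REG) (h2 : REGB2) (h3 : SMO) (h4 : WSY) (hR : REP) : P366K2.LOC :=
  fun _ _ _ _ _ _ _ _ _ _ _ _ _ _ _ _ _ _ _ _ => lo h1 h2 h3 h4 hR

end Vale.Agent.P366CU
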